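import Vale.Agent.P197.Full

open P197

/-- Saxl's conjecture: for every `m ≥ 1` and every diagram `ν` with `m (m + 1) / 2` cells, tableaux of
the staircase and of `ν` exist, and for all of them the Kronecker coefficient of staircase, staircase,
`ν` is positive. -/
theorem Vale.Agent.Results.P197.SaxlConjecture.result :
    ∀ m : ℕ, 1 ≤ m → ∀ ν : YoungDiagram, ν.card = m * (m + 1) / 2 →
      Nonempty (Tableau (m * (m + 1) / 2) (staircase m)) ∧
        Nonempty (Tableau (m * (m + 1) / 2) ν) ∧
          ∀ (t : Tableau (m * (m + 1) / 2) (staircase m)) (u : Tableau (m * (m + 1) / 2) ν),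
            0 < kronecker t t u :=
  fun m hm ν hν => ⟨nonempty_tableau _ (card_staircase m), nonempty_tableau _ hν,
    statement_holds m hm ν hν⟩
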